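import Crest.Agent.Helper15.OT.LabelSubgrad

/-!
# Row 82 (S0109), WP-M, leaf lemma M2 with a generic constant

Same statement as `label_subgrad_close_abs` / `label_subgrad_close`, but the moment inequality
(S) is assumed with an arbitrary constant `c₀ ≥ 0` instead of `300`; the bound becomes
`(sqrt (3 c₀) + 2) R ‖m' - m‖_{ℓ²(1/m)} ‖v‖_{ℓ²(m)}`.
-/

set_option autoImplicit false

noncomputable section

open scoped RealInnerProductSpace

namespace Crest.Agent.Helper75.OT

variable {d : ℕ}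

open LabelAux

/-- **M2**: comparison of the label subgradients of one configuration `u` for two mass vectors,
from the moment inequality (S) (`hS`) for the merged cells. `P c`, `P' c` play the role of the
first moments of the cell of the atom `c` for the masses `m`, `m'`. -/
theorem label_subgrad_close_abs_gen {ι : Type} [Fintype ι] (u v : ι → E d) (m m' : ι → ℝ)
    (hm : ∀ i, 0 < m i) (hm' : ∀ i, 0 < m' i) (hle : ∀ i, m' i ≤ 2 * m i)
    (R : ℝ) (hR : 0 ≤ R) (c₀ : ℝ) (hc₀ : 0 ≤ c₀) (P P' : E d → E d)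
    (hP' : ∀ c ∈ supp u, ‖P' c‖ ≤ R * mergedMass u m' c)
    (hS : ∑ c ∈ supp u, ‖P' c - P c‖ ^ 2 / (mergedMass u m c + mergedMass u m' c)
      ≤ c₀ * R ^ 2 * ∑ c ∈ supp u, (mergedMass u m' c - mergedMass u m c) ^ 2
          / (mergedMass u m c + mergedMass u m' c)) :
    |∑ i, m' i / mergedMass u m' (u i) * ⟪P' (u i), v i⟫
        - ∑ i, m i / mergedMass u m (u i) * ⟪P (u i), v i⟫|
      ≤ (Real.sqrt (3 * c₀) + 2) * R * Real.sqrt (∑ i, (m' i - m i) ^ 2 / m i)
          * Real.sqrt (∑ i, m i * ‖v i‖ ^ 2) := by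
  classical
  set W : E d → ℝ := mergedMass u m with hWdef
  set W' : E d → ℝ := mergedMass u m' with hW'def
  have hW : ∀ i, 0 < W (u i) := fun i => mergedMass_pos' u m hm i
  have hW' : ∀ i, 0 < W' (u i) := fun i => mergedMass_pos' u m' hm' i
  have hsupp : ∀ c ∈ supp u, ∃ i, u i = c := by
    intro c hc
    unfold supp at hc
    obtain ⟨i, -, hi⟩ := Finset.mem_image.mp hc
    exact ⟨i, hi⟩
  have hmem : ∀ i, u i ∈ supp u := fun i => by
    unfold supp; exact Finset.mem_image_of_mem u (Finset.mem_univ i)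
  have hWc : ∀ c ∈ supp u, 0 < W c := by
    intro c hc; obtain ⟨i, rfl⟩ := hsupp c hc; exact hW i
  have hW'c : ∀ c ∈ supp u, 0 < W' c := by
    intro c hc; obtain ⟨i, rfl⟩ := hsupp c hc; exact hW' i
  have hW'le : ∀ c, W' c ≤ 2 * W c := by
    intro c
    simp only [hWdef, hW'def, mergedMass_eq_filter, Finset.mul_sum]
    exact Finset.sum_le_sum fun i _ => hle i
  set N2 : ℝ := ∑ i, (m' i - m i) ^ 2 / m i with hN2def
  set V2 : ℝ := ∑ i, m i * ‖v i‖ ^ 2 with hV2def
  have hN2 : 0 ≤ N2 := Finset.sum_nonneg fun i _ => div_nonneg (sq_nonneg _) (hm i).le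
  have hV2 : 0 ≤ V2 := Finset.sum_nonneg fun i _ => mul_nonneg (hm i).le (sq_nonneg _)
  have hΔ : ∑ c ∈ supp u, (W' c - W c) ^ 2 / W c ≤ N2 :=
    sum_sq_mergedMass_sub_div_le u m m' hm
  -- the two weighted sums of squares
  have hB2 : ∑ i, m i * (|W' (u i) - W (u i)| / W (u i)) ^ 2 ≤ N2 := by
    have e := sum_supp_mergedMass' u m (fun c => (|W' c - W c| / W c) ^ 2)
    rw [← e]
    refine le_trans (le_of_eq ?_) hΔ
    refine Finset.sum_congr rfl fun c hc => ?_
    have := hWc c hc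
    rw [div_pow, sq_abs]
    change W c * ((W' c - W c) ^ 2 / W c ^ 2) = (W' c - W c) ^ 2 / W c
    field_simp
  have hA2 : ∑ i, m i * (‖P' (u i) - P (u i)‖ / W (u i)) ^ 2 ≤ 3 * c₀ * R ^ 2 * N2 := by
    have e := sum_supp_mergedMass' u m (fun c => (‖P' c - P c‖ / W c) ^ 2)
    rw [← e]
    have h1 : ∑ c ∈ supp u, mergedMass u m c * (‖P' c - P c‖ / W c) ^ 2
        ≤ ∑ c ∈ supp u, 3 * (‖P' c - P c‖ ^ 2 / (W c + W' c)) := by
      refine Finset.sum_le_sum fun c hc => ?_
      have h0 := hWc c hc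
      have h0' := hW'c c hc
      have h2 := hW'le c
      change W c * (‖P' c - P c‖ / W c) ^ 2 ≤ 3 * (‖P' c - P c‖ ^ 2 / (W c + W' c))
      have e1 : W c * (‖P' c - P c‖ / W c) ^ 2 = ‖P' c - P c‖ ^ 2 / W c := by
        field_simp
      rw [e1, ← mul_div_assoc, div_le_div_iff₀ h0 (by linarith)]
      have hsq : 0 ≤ ‖P' c - P c‖ ^ 2 := sq_nonneg _
      nlinarith
    have h3 : ∑ c ∈ supp u, (W' c - W c) ^ 2 / (W c + W' c)
        ≤ ∑ c ∈ supp u, (W' c - W c) ^ 2 / W c := by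
      refine Finset.sum_le_sum fun c hc => ?_
      have h0 := hWc c hc
      have h0' := hW'c c hc
      exact div_le_div_of_nonneg_left (sq_nonneg _) h0 (by linarith)
    have hR2 : 0 ≤ c₀ * R ^ 2 := by positivity
    calc ∑ c ∈ supp u, mergedMass u m c * (‖P' c - P c‖ / W c) ^ 2
        ≤ ∑ c ∈ supp u, 3 * (‖P' c - P c‖ ^ 2 / (W c + W' c)) := h1
      _ = 3 * ∑ c ∈ supp u, ‖P' c - P c‖ ^ 2 / (W c + W' c) := by rw [Finset.mul_sum]
      _ ≤ 3 * (c₀ * R ^ 2 * ∑ c ∈ supp u, (W' c - W c) ^ 2 / (W c + W' c)) := by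
          have := hS
          linarith
      _ ≤ 3 * (c₀ * R ^ 2 * N2) := by
          have := mul_le_mul_of_nonneg_left (h3.trans hΔ) hR2
          linarith
      _ = 3 * c₀ * R ^ 2 * N2 := by ring
  have hC2 : ∑ i, m i * (|m' i - m i| / m i) ^ 2 = N2 := by
    refine Finset.sum_congr rfl fun i _ => ?_
    have := hm i
    rw [div_pow, sq_abs]
    field_simp
  have hV2' : ∑ i, m i * ‖v i‖ ^ 2 = V2 := rfl
  -- split the difference
  have hsplit : ∑ i, m' i / W' (u i) * ⟪P' (u i), v i⟫ - ∑ i, m i / W (u i) * ⟪P (u i), v i⟫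
      = ∑ i, m i / W (u i) * ⟪P' (u i) - P (u i), v i⟫
        + ∑ i, (m' i / W' (u i) - m i / W (u i)) * ⟪P' (u i), v i⟫ := by
    rw [← Finset.sum_sub_distrib, ← Finset.sum_add_distrib]
    refine Finset.sum_congr rfl fun i _ => ?_
    rw [inner_sub_left]
    ring
  -- term A
  have hA : |∑ i, m i / W (u i) * ⟪P' (u i) - P (u i), v i⟫|
      ≤ Real.sqrt (3 * c₀) * R * Real.sqrt N2 * Real.sqrt V2 := by
    have h1 : |∑ i, m i / W (u i) * ⟪P' (u i) - P (u i), v i⟫|
        ≤ ∑ i, m i * (‖P' (u i) - P (u i)‖ / W (u i)) * ‖v i‖ := by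
      refine (Finset.abs_sum_le_sum_abs _ _).trans (Finset.sum_le_sum fun i _ => ?_)
      have h0 := hW i
      have hmi := hm i
      rw [abs_mul, abs_of_nonneg (div_nonneg hmi.le h0.le)]
      have hin := abs_real_inner_le_norm (P' (u i) - P (u i)) (v i)
      calc m i / W (u i) * |⟪P' (u i) - P (u i), v i⟫|
          ≤ m i / W (u i) * (‖P' (u i) - P (u i)‖ * ‖v i‖) :=
            mul_le_mul_of_nonneg_left hin (div_nonneg hmi.le h0.le)
        _ = m i * (‖P' (u i) - P (u i)‖ / W (u i)) * ‖v i‖ := by ring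
    have h2 := weighted_cs m (fun i => ‖P' (u i) - P (u i)‖ / W (u i)) (fun i => ‖v i‖)
      (fun i => (hm i).le)
    have h3 : Real.sqrt (∑ i, m i * (‖P' (u i) - P (u i)‖ / W (u i)) ^ 2)
        ≤ Real.sqrt (3 * c₀) * R * Real.sqrt N2 := by
      have : Real.sqrt (3 * c₀ * R ^ 2 * N2) = Real.sqrt (3 * c₀) * R * Real.sqrt N2 := by
        have h3c : (0 : ℝ) ≤ 3 * c₀ := by positivity
        rw [Real.sqrt_mul (by positivity), Real.sqrt_mul h3c, Real.sqrt_sq hR]
      rw [← this]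
      exact Real.sqrt_le_sqrt hA2
    calc |∑ i, m i / W (u i) * ⟪P' (u i) - P (u i), v i⟫|
        ≤ ∑ i, m i * (‖P' (u i) - P (u i)‖ / W (u i)) * ‖v i‖ := h1
      _ ≤ Real.sqrt (∑ i, m i * (‖P' (u i) - P (u i)‖ / W (u i)) ^ 2)
            * Real.sqrt (∑ i, m i * ‖v i‖ ^ 2) := h2
      _ ≤ Real.sqrt (3 * c₀) * R * Real.sqrt N2 * Real.sqrt V2 :=
          mul_le_mul_of_nonneg_right h3 (Real.sqrt_nonneg _)
  -- term B
  have hB : |∑ i, (m' i / W' (u i) - m i / W (u i)) * ⟪P' (u i), v i⟫|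
      ≤ 2 * R * Real.sqrt N2 * Real.sqrt V2 := by
    have h1 : |∑ i, (m' i / W' (u i) - m i / W (u i)) * ⟪P' (u i), v i⟫|
        ≤ ∑ i, R * (m i * (|m' i - m i| / m i) * ‖v i‖
            + m i * (|W' (u i) - W (u i)| / W (u i)) * ‖v i‖) := by
      refine (Finset.abs_sum_le_sum_abs _ _).trans (Finset.sum_le_sum fun i _ => ?_)
      have h0 := hW i
      have h0' := hW' i
      have hmi := hm i
      rw [abs_mul]
      have hin : |⟪P' (u i), v i⟫| ≤ R * W' (u i) * ‖v i‖ :=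
        (abs_real_inner_le_norm _ _).trans
          (mul_le_mul_of_nonneg_right (hP' (u i) (hmem i)) (norm_nonneg _))
      have hlam : |m' i / W' (u i) - m i / W (u i)| * W' (u i)
          ≤ |m' i - m i| + m i * (|W' (u i) - W (u i)| / W (u i)) := by
        have e : (m' i / W' (u i) - m i / W (u i)) * W' (u i)
            = (m' i - m i) - m i * ((W' (u i) - W (u i)) / W (u i)) := by
          field_simp
          ring
        have e2 : |m' i / W' (u i) - m i / W (u i)| * W' (u i)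
            = |(m' i / W' (u i) - m i / W (u i)) * W' (u i)| := by
          rw [abs_mul, abs_of_pos h0']
        rw [e2, e]
        refine (abs_sub _ _).trans ?_
        rw [abs_mul, abs_div, abs_of_pos hmi, abs_of_pos h0]
      have hvn := norm_nonneg (v i)
      calc |m' i / W' (u i) - m i / W (u i)| * |⟪P' (u i), v i⟫|
          ≤ |m' i / W' (u i) - m i / W (u i)| * (R * W' (u i) * ‖v i‖) :=
            mul_le_mul_of_nonneg_left hin (abs_nonneg _)
        _ = R * (|m' i / W' (u i) - m i / W (u i)| * W' (u i)) * ‖v i‖ := by ring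
        _ ≤ R * (|m' i - m i| + m i * (|W' (u i) - W (u i)| / W (u i))) * ‖v i‖ := by
            gcongr
        _ = R * (m i * (|m' i - m i| / m i) * ‖v i‖
              + m i * (|W' (u i) - W (u i)| / W (u i)) * ‖v i‖) := by
            field_simp
    have h2 := weighted_cs m (fun i => |m' i - m i| / m i) (fun i => ‖v i‖) (fun i => (hm i).le)
    have h3 := weighted_cs m (fun i => |W' (u i) - W (u i)| / W (u i)) (fun i => ‖v i‖)
      (fun i => (hm i).le)
    rw [hC2] at h2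
    have h4 : Real.sqrt (∑ i, m i * (|W' (u i) - W (u i)| / W (u i)) ^ 2) ≤ Real.sqrt N2 :=
      Real.sqrt_le_sqrt hB2
    have h5 : ∑ i, m i * (|W' (u i) - W (u i)| / W (u i)) * ‖v i‖
        ≤ Real.sqrt N2 * Real.sqrt V2 :=
      h3.trans (mul_le_mul_of_nonneg_right h4 (Real.sqrt_nonneg _))
    calc |∑ i, (m' i / W' (u i) - m i / W (u i)) * ⟪P' (u i), v i⟫|
        ≤ ∑ i, R * (m i * (|m' i - m i| / m i) * ‖v i‖
            + m i * (|W' (u i) - W (u i)| / W (u i)) * ‖v i‖) := h1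
      _ = R * (∑ i, m i * (|m' i - m i| / m i) * ‖v i‖
            + ∑ i, m i * (|W' (u i) - W (u i)| / W (u i)) * ‖v i‖) := by
          rw [← Finset.mul_sum, Finset.sum_add_distrib]
      _ ≤ R * (Real.sqrt N2 * Real.sqrt V2 + Real.sqrt N2 * Real.sqrt V2) :=
          mul_le_mul_of_nonneg_left (add_le_add h2 h5) hR
      _ = 2 * R * Real.sqrt N2 * Real.sqrt V2 := by ring
  rw [hsplit]
  refine (abs_add_le _ _).trans ?_
  have := add_le_add hA hB
  linarith


/-- **M2**, concrete form with a generic constant `c₀` in the moment inequality. -/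
theorem label_subgrad_close_gen {K : Set (E d)} {R : ℝ} (hR0 : 0 ≤ R) (c₀ : ℝ) (hc₀ : 0 ≤ c₀)
    {ι : Type} [Fintype ι]
    (u v : ι → E d) (m m' : ι → ℝ) (hm : ∀ i, 0 < m i) (hm' : ∀ i, 0 < m' i)
    (hle : ∀ i, m' i ≤ 2 * m i) (w w' : E d → ℝ)
    (hw : IsLagWeights K (supp u) (mergedMass u m) w)
    (hw' : IsLagWeights K (supp u) (mergedMass u m') w')
    (hnorm : ∀ c ∈ supp u, ‖mM K (supp u) w' c‖ ≤ R * gM K (supp u) w' c)
    (hMS : ∑ c ∈ supp u, ‖mM K (supp u) w' c - mM K (supp u) w c‖ ^ 2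
          / (gM K (supp u) w c + gM K (supp u) w' c)
      ≤ c₀ * R ^ 2 * ∑ c ∈ supp u, (gM K (supp u) w' c - gM K (supp u) w c) ^ 2
          / (gM K (supp u) w c + gM K (supp u) w' c)) :
    |∑ i, m' i / mergedMass u m' (u i) * ⟪mM K (supp u) w' (u i), v i⟫
        - ∑ i, m i / mergedMass u m (u i) * ⟪mM K (supp u) w (u i), v i⟫|
      ≤ (Real.sqrt (3 * c₀) + 2) * R * Real.sqrt (∑ i, (m' i - m i) ^ 2 / m i)
          * Real.sqrt (∑ i, m i * ‖v i‖ ^ 2) := by
  refine label_subgrad_close_abs_gen u v m m' hm hm' hle R hR0 c₀ hc₀ (mM K (supp u) w)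
    (mM K (supp u) w') (fun c hc => ?_) ?_
  · have := hnorm c hc
    rwa [hw' c hc] at this
  · have e1 : ∑ c ∈ supp u, ‖mM K (supp u) w' c - mM K (supp u) w c‖ ^ 2
          / (mergedMass u m c + mergedMass u m' c)
        = ∑ c ∈ supp u, ‖mM K (supp u) w' c - mM K (supp u) w c‖ ^ 2
          / (gM K (supp u) w c + gM K (supp u) w' c) :=
      Finset.sum_congr rfl fun c hc => by rw [hw c hc, hw' c hc]
    have e2 : ∑ c ∈ supp u, (mergedMass u m' c - mergedMass u m c) ^ 2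
          / (mergedMass u m c + mergedMass u m' c)
        = ∑ c ∈ supp u, (gM K (supp u) w' c - gM K (supp u) w c) ^ 2
          / (gM K (supp u) w c + gM K (supp u) w' c) :=
      Finset.sum_congr rfl fun c hc => by rw [hw c hc, hw' c hc]
    rw [e1, e2]
    exact hMS

end Crest.Agent.Helper75.OT
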